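import Mathlib
import Vale.Agent.P293.Coord

namespace Vale.Agent.Results.P295.StableDegreeTwo

open MvPolynomial

/-- Stable coordinates of degree at most two, and positively weighted homogeneous ones, are
coordinates. -/
theorem result : ∀ (k : Type) [Field k] [CharZero k] (n m : ℕ)
    (f : MvPolynomial (Fin (n + 1)) k),
    (∃ (χ : MvPolynomial (Fin (n + 1) ⊕ Fin m) k ≃ₐ[k] MvPolynomial (Fin (n + 1) ⊕ Fin m) k)
      (s : Fin (n + 1) ⊕ Fin m), χ (rename Sum.inl f) = X s) →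
    (f.totalDegree ≤ 2 ∨
      ∃ (w : Fin (n + 1) → ℕ) (d : ℕ), (∀ i, 0 < w i) ∧ IsWeightedHomogeneous w f d) →
    ∃ ψ : MvPolynomial (Fin (n + 1)) k ≃ₐ[k] MvPolynomial (Fin (n + 1)) k, ψ f = X 0 := by
  intro k _ _ n m f hst h
  obtain ⟨χ, s, hs⟩ := hst
  rcases h with h | ⟨w, d, hw, hf⟩
  · exact Vale.Agent.P293.coordinate_of_degree_two f
      (Vale.Agent.P293.grad_of_stable f χ s hs) h
  · exact Vale.Agent.P293.coordinate_of_weightedHomogeneous f
      (Vale.Agent.P293.grad_of_stable f χ s hs 0) w hw d hf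

end Vale.Agent.Results.P295.StableDegreeTwo
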